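import Vale.Agent.P255.Loops.Main
import Vale.Agent.P255.Bridge
import Vale.Agent.P255.Along

/-!
# Straight lines of a flat piece are geodesics
-/

open scoped Manifold ContDiff Topology
open Filter

namespace Vale.Agent.P255.Loops

open Vale.Agent.P219 Vale.Agent.P219.Univ Vale.Agent.P255.Atlas

noncomputable section

variable {M : Type} [TopologicalSpace M] [ChartedSpace E3 M] [IsManifold (𝓡 3) ∞ M]
  {g : SmoothMetric M}

theorem gam_flat (y u w : E3) : gam flat y u w = 0 := by
  simp [gam, sharp, chris, show fderiv ℝ flat y = 0 from fderiv_const_apply _]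

/-- A line inside a flat parametrisation is a geodesic. -/
theorem isGeodesic_line {N : E3 → M} {D : Set E3} (h : IsParam g N D flat) {q u : E3}
    (hD : ∀ s : ℝ, q + s • u ∈ D) : IsGeodesic g fun s => N (q + s • u) := by
  set c : ℝ → E3 := fun s => q + s • u with hc
  have hcs : ContDiff ℝ ∞ c := contDiff_const.add (contDiff_id.smul contDiff_const)
  have hd1 : ∀ s, HasDerivAt c u s := fun s => by
    simpa [hc] using ((hasDerivAt_id s).smul_const u).const_add q
  have hd : deriv c = fun _ => u := funext fun s => (hd1 s).deriv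
  refine ⟨h.smooth.comp_contMDiff hcs.contMDiff hD, fun t => ?_⟩
  have hl : IsLift (fun s => N (c s)) N D t c :=
    ⟨Eventually.of_forall fun s => ⟨hD s, rfl⟩, Eventually.of_forall fun _ => hcs.contDiffAt⟩
  obtain ⟨hy, hq⟩ := hl.chart_mem (g := g) (G := flat) h
  have h1 := accel_pull (Eventually.of_forall fun s => (hd1 s).differentiableAt)
    (by rw [hd]; exact differentiableAt_const u) (h.contDiffAt_coordChange hy hq)
    (h.bijective_coordChange hy hq) (IsParam.metricNear_chart hq g)
  rw [h.gam_eq hy hq, hd, deriv_const, gam_flat, add_zero, map_zero] at h1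
  have he := hl.curveAt_eq
  rw [he.deriv.deriv_eq, he.deriv_eq, he.eq_of_nhds]
  exact h1

theorem line_mem_block {R : ℝ} (h0 : 0 ≤ R) (h2 : R < 2) (t : ℝ) :
    pt 5 (-5) t ∈ block R := by
  refine mem_block_of h0 h2 ?_ ?_ ?_
  · simp [pt]
  · simp [pt]
  · simp only [pt_zero, pt_one]
    nlinarith

/-- The fibre of the first block through the corner of the square is a geodesic. -/
theorem isGeodesic_fibre {δ : ℝ} (P : Pieces δ g) :
    IsGeodesic g fun t => P.V (pt 5 (-5) t) := by
  have hline : ∀ t : ℝ, pt 5 (-5) 0 + t • pt 0 0 1 = pt 5 (-5) t := fun t =>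
    PiLp.ext fun k => by fin_cases k <;> simp [pt]
  have h := isGeodesic_line P.first.isParam (q := pt 5 (-5) 0) (u := pt 0 0 1) fun t => by
    rw [hline]; exact line_mem_block rhoV_bounds.1.le rhoV_bounds.2 t
  simpa only [hline] using h

end

end Vale.Agent.P255.Loops
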