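import Vale.Agent.P255.Loops.Block
import Vale.Agent.P255.Atlas.Cylinder

/-!
# The deck transformations of the neck and of the two blocks
-/

open scoped Real Topology Manifold ContDiff
open Set Filter
open scoped commutatorElement

namespace Vale.Agent.P255.Loops

open Vale.Agent.P255.Atlas

noncomputable section

variable {M : Type} [TopologicalSpace M] [ChartedSpace E3 M] [IsManifold (𝓡 3) ∞ M]
  {δ : ℝ} {g : SmoothMetric M} {E : E3 → M}

theorem continuous_pt {X : Type} [TopologicalSpace X] {a b c : X → ℝ} (ha : Continuous a)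
    (hb : Continuous b) (hc : Continuous c) : Continuous fun q => pt (a q) (b q) (c q) := by
  have h : (fun q => pt (a q) (b q) (c q)) =
      fun q => a q • pt 1 0 0 + b q • pt 0 1 0 + c q • pt 0 0 1 := funext fun q => pt_eq_sum _ _ _
  rw [h]
  fun_prop

/-- The projection of three-space onto the middle of the neck strip. -/
def toStrip (w : E3) : E3 := pt (max (-(5 / 2)) (min (5 / 2) (w 0))) (w 1) (w 2)

theorem continuous_toStrip : Continuous toStrip := by
  have h : Continuous fun w : E3 => max (-(5 / 2) : ℝ) (min (5 / 2) (w 0)) :=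
    continuous_const.max (continuous_const.min (by fun_prop))
  have he : toStrip = fun w : E3 => max (-(5 / 2)) (min (5 / 2) (w 0)) • pt 1 0 0 +
      w 1 • pt 0 1 0 + w 2 • pt 0 0 1 := funext fun w => pt_eq_sum _ _ _
  rw [he]
  fun_prop

theorem toStrip_mem (w : E3) : toStrip w ∈ strip := by
  have h1 : -(5 / 2 : ℝ) ≤ max (-(5 / 2)) (min (5 / 2) (w 0)) := le_max_left _ _
  have h2 : max (-(5 / 2) : ℝ) (min (5 / 2) (w 0)) ≤ 5 / 2 :=
    max_le (by norm_num) (min_le_left _ _)
  change |max (-(5 / 2) : ℝ) (min (5 / 2) (w 0))| < 3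
  rw [abs_lt]; constructor <;> linarith

theorem toStrip_eq {w : E3} (h : |w 0| ≤ 5 / 2) : toStrip w = w := by
  obtain ⟨h1, h2⟩ := abs_le.1 h
  rw [toStrip, min_eq_right h2, max_eq_right h1, pt_eta]

theorem radiusV : rhoV (5 / 2) = rhoV 2 + 1 / 2 := by
  rw [rhoV_right (by norm_num)]; norm_num

theorem radiusW (h0 : δ ≠ 0) : rhoW δ (-(5 / 2)) = rhoW δ (-2) + 1 / 2 := by
  rw [rhoW_left h0 (by norm_num)]; norm_num

/-- The relations of the deck transformations of the three pieces. -/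
theorem exists_relations (h0 : 0 < δ) (h1 : δ ≤ 1) (P : Pieces δ g) (hE : IsCoveringMap E)
    (hsurj : Function.Surjective E) {v : E3} (hv : v ≠ 0)
    (hray : ∀ t : ℝ, E (t • v) = P.V (pt 5 (-5) t)) :
    ∃ f ∈ Deck E, ∃ f' ∈ Deck E, ∃ a ∈ Deck E, ∃ b ∈ Deck E, ∃ a' ∈ Deck E, ∃ b' ∈ Deck E,
      f ≠ 1 ∧ Commute f f' ∧ Commute f a ∧ Commute f b ∧ Commute f' a' ∧ Commute f' b' ∧
      (f' * f⁻¹ = ⁅a, b⁆ ∨ f' * f⁻¹ = ⁅a, b⁆⁻¹) ∧ (f = ⁅a', b'⁆ ∨ f = ⁅a', b'⁆⁻¹) := by
  have hπ := Real.pi_pos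
  -- the lift of the neck
  have hNc : Continuous fun w => P.N (toStrip w) :=
    P.neck.smooth.continuousOn.comp_continuous continuous_toStrip toStrip_mem
  obtain ⟨x₀, hx₀⟩ := hsurj (P.N (toStrip 0))
  obtain ⟨L, hL, -, hLE⟩ := exists_lift hE hNc hx₀
  have hneck : ∀ l : E3, l 0 = 0 → NeckEq δ 0 l → ∀ w,
      P.N (toStrip (w + l)) = P.N (toStrip w) := by
    intro l hl he w
    refine ((P.neck.fibre _ (toStrip_mem _) _ (toStrip_mem _)).2 ?_).symm
    obtain ⟨-, ⟨m, hm⟩, ⟨n, hn⟩⟩ := he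
    refine ⟨by simp [toStrip, pt, hl], ⟨m, ?_⟩, ⟨n, ?_⟩⟩
    · simp at hm
      simp [toStrip, pt, hm]
    · simp at hn
      simp [toStrip, pt, hn]
  obtain ⟨f, hf, hfL⟩ := exists_period hE hL hLE (pt 0 δ 0)
    (hneck _ rfl ⟨by simp [pt], ⟨1, by simp [pt]⟩, ⟨0, by simp [pt]⟩⟩)
  obtain ⟨f', hf', hf'L⟩ := exists_period hE hL hLE (pt 0 0 1)
    (hneck _ rfl ⟨by simp [pt], ⟨0, by simp [pt]⟩, ⟨1, by simp [pt]⟩⟩)
  have hff : Commute f f' := by
    refine deck_ext hE (mul_mem hf hf') (mul_mem hf' hf) (x := L 0) ?_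
    simp only [Equiv.Perm.mul_apply]
    rw [← hf'L, ← hfL, ← hfL, ← hf'L, add_right_comm]
  -- the first block
  have hbV := rhoV_bounds
  have hmV : ∀ w, square (rhoV (5 / 2)) w ∈ block (rhoV 2) := fun w =>
    square_mem hbV.1 hbV.2 (by rw [radiusV]; linarith) (by rw [radiusV]; linarith) w
  have hVc : Continuous fun w => P.V (square (rhoV (5 / 2)) w) :=
    P.first.smooth.continuousOn.comp_continuous (continuous_square _) hmV
  have hlink : ∀ a z, P.V (square (rhoV (5 / 2)) (pt 0 a z)) =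
      P.N (toStrip (pt (5 / 2) (z - δ * (a / (2 * π))) (a / (2 * π)))) := fun a z => by
    rw [square_circle, toStrip_eq (by rw [pt_zero, abs_of_pos] <;> norm_num)]
    rw [P.glueV _ (by change |(5 / 2 : ℝ)| < 3; rw [abs_of_pos] <;> norm_num)
      (by rw [pt_zero]; norm_num)]
    rw [toV_eq, pt_zero, pt_one, pt_two, sub_add_cancel,
      mul_div_cancel₀ a (by positivity : (2 : ℝ) * π ≠ 0)]
  obtain ⟨G, hG, hG0, hGE⟩ := exists_lift hE hVc (a := 0) (x := L (pt (5 / 2) 0 0)) (by
    have := hlink 0 0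
    rw [show pt 0 0 0 = (0 : E3) from PiLp.ext fun k => by fin_cases k <;> simp [pt]] at this
    rw [hLE, this]
    simp)
  have hGplane : ∀ a z, G (pt 0 a z) = L (pt (5 / 2) (z - δ * (a / (2 * π))) (a / (2 * π))) := by
    intro a z
    have hc : Continuous fun q : ℝ × ℝ => pt 0 q.1 q.2 :=
      continuous_pt (by fun_prop) (by fun_prop) (by fun_prop)
    have hc' : Continuous fun q : ℝ × ℝ =>
        pt (5 / 2) (q.2 - δ * (q.1 / (2 * π))) (q.1 / (2 * π)) := continuous_pt (by fun_prop) (by fun_prop) (by fun_prop)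
    refine lift_unique hE (hG.comp hc) (hL.comp hc') (fun q => ?_) (a := (0, 0)) ?_ (a, z)
    · change E (G _) = E (L _)
      rw [hGE, hLE, hlink]
    · change G (pt 0 0 0) = L (pt (5 / 2) (0 - δ * (0 / (2 * π))) (0 / (2 * π)))
      rw [show pt 0 0 0 = (0 : E3) from PiLp.ext fun k => by fin_cases k <;> simp [pt], hG0]
      simp
  obtain ⟨a, ha, b, hb, hfa, hfb, hrel⟩ := block_relation hE hbV.1 hbV.2
    (show rhoV 2 < rhoV (5 / 2) by rw [radiusV]; linarith)
    (show rhoV (5 / 2) ≤ 5 by rw [radiusV]; linarith)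
    (fun x hx y hy e => (P.first.fibre x hx y hy).2 e) hG hGE
    (u := f' * f⁻¹) (q := f) (mul_mem hf' (inv_mem hf)) hf (by
      rw [hGplane, hG0, Equiv.Perm.mul_apply]
      have h2 := hfL (pt (5 / 2) (0 - δ) 0)
      rw [show pt (5 / 2) (0 - δ) 0 + pt 0 δ 0 = pt (5 / 2) 0 0 from
        PiLp.ext fun k => by fin_cases k <;> simp [pt]] at h2
      rw [h2, Equiv.Perm.coe_inv, Equiv.symm_apply_apply, ← hf'L,
        div_self (by positivity : (2 : ℝ) * π ≠ 0)]
      exact congrArg L (PiLp.ext fun k => by fin_cases k <;> simp [pt]))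
    (by
      rw [hGplane, hG0, ← hfL]
      exact congrArg L (PiLp.ext fun k => by fin_cases k <;> simp [pt]))
  -- the fibre line of the first block is not closed upstairs
  have hne : f ≠ 1 := by
    intro hf1
    have hline : ∀ t, E (G (pt 1 (-π / 4) t)) = E (t • v) := fun t => by
      rw [hGE, square_side, hray]
      have hn : sqNorm (-π / 4) = Real.cos (π / 4) := by
        rw [sqNorm_eq_cos (by rw [abs_of_neg (by linarith)]; linarith), neg_div, Real.cos_neg]
      rw [hn, cyl, show -π / 4 = -(π / 4) by ring, Real.cos_neg, Real.sin_neg,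
        Real.cos_pi_div_four, Real.sin_pi_div_four]
      congr 1
      refine PiLp.ext fun k => ?_
      fin_cases k <;> simp [pt]
    obtain ⟨d, hd, hd0⟩ := exists_deck hE (hline 0)
    have hc : Continuous fun t : ℝ => pt 1 (-π / 4) t :=
      continuous_pt (by fun_prop) (by fun_prop) (by fun_prop)
    have hdl := lift_unique hE (hd.1.comp (hG.comp hc)) (continuous_id.smul continuous_const)
      (fun t => (hd.2.2 _).trans (hline t)) hd0
    have hshift := lift_unique hE
      (hG.comp (continuous_id.add (continuous_const (y := pt 0 0 δ)))) (hf.1.comp hG) (fun w => by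
        change E (G (w + pt 0 0 δ)) = E (f (G w))
        rw [hf.2.2, hGE, hGE]
        exact ((P.first.fibre _ (hmV w) _ (hmV _)).2 (square_shift _ w)).symm) (a := 0) (by
        change G (0 + pt 0 0 δ) = f (G 0)
        rw [zero_add, hGplane, hG0, ← hfL]
        exact congrArg L (PiLp.ext fun k => by fin_cases k <;> simp [pt])) (pt 1 (-π / 4) 0)
    change G (pt 1 (-π / 4) 0 + pt 0 0 δ) = f (G (pt 1 (-π / 4) 0)) at hshift
    rw [hf1, Equiv.Perm.one_apply, show pt 1 (-π / 4) 0 + pt 0 0 δ = pt 1 (-π / 4) δ from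
      PiLp.ext fun k => by fin_cases k <;> simp [pt]] at hshift
    have h := (hdl δ).symm.trans ((congrArg d hshift).trans (hdl 0))
    change δ • v = (0 : ℝ) • v at h
    rw [zero_smul, smul_eq_zero] at h
    exact h.elim h0.ne' hv
  -- the second block
  have hbW := rhoW_bounds h0 h1
  have hmW : ∀ w, square (rhoW δ (-(5 / 2))) w ∈ block (rhoW δ (-2)) := fun w =>
    square_mem hbW.1 hbW.2 (by rw [radiusW h0.ne']; linarith) (by rw [radiusW h0.ne']; linarith) w
  have hWc : Continuous fun w => P.W (square (rhoW δ (-(5 / 2))) w) :=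
    P.second.smooth.continuousOn.comp_continuous (continuous_square _) hmW
  have hlink' : ∀ a z, P.W (square (rhoW δ (-(5 / 2))) (pt 0 a z)) =
      P.N (toStrip (pt (-(5 / 2)) (δ * (a / (2 * π))) z)) := fun a z => by
    rw [square_circle, toStrip_eq (by rw [pt_zero, abs_neg, abs_of_pos] <;> norm_num)]
    rw [P.glueW _ (by change |-(5 / 2 : ℝ)| < 3; rw [abs_neg, abs_of_pos] <;> norm_num)
      (by rw [pt_zero]; norm_num)]
    rw [toW_eq, pt_zero, pt_one, pt_two]
    congr 2
    field_simp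
  obtain ⟨G', hG', hG'0, hG'E⟩ := exists_lift hE hWc (a := 0) (x := L (pt (-(5 / 2)) 0 0)) (by
    have := hlink' 0 0
    rw [show pt 0 0 0 = (0 : E3) from PiLp.ext fun k => by fin_cases k <;> simp [pt]] at this
    rw [hLE, this]
    simp)
  have hG'plane : ∀ a z, G' (pt 0 a z) = L (pt (-(5 / 2)) (δ * (a / (2 * π))) z) := by
    intro a z
    have hc : Continuous fun q : ℝ × ℝ => pt 0 q.1 q.2 :=
      continuous_pt (by fun_prop) (by fun_prop) (by fun_prop)
    have hc' : Continuous fun q : ℝ × ℝ => pt (-(5 / 2)) (δ * (q.1 / (2 * π))) q.2 :=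
      continuous_pt (by fun_prop) (by fun_prop) (by fun_prop)
    refine lift_unique hE (hG'.comp hc) (hL.comp hc') (fun q => ?_) (a := (0, 0)) ?_ (a, z)
    · change E (G' _) = E (L _)
      rw [hG'E, hLE, hlink']
    · change G' (pt 0 0 0) = L (pt (-(5 / 2)) (δ * (0 / (2 * π))) 0)
      rw [show pt 0 0 0 = (0 : E3) from PiLp.ext fun k => by fin_cases k <;> simp [pt], hG'0]
      simp
  obtain ⟨a', ha', b', hb', hfa', hfb', hrel'⟩ := block_relation hE hbW.1 hbW.2
    (show rhoW δ (-2) < rhoW δ (-(5 / 2)) by rw [radiusW h0.ne']; linarith)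
    (show rhoW δ (-(5 / 2)) ≤ 5 by rw [radiusW h0.ne']; linarith)
    (fun x hx y hy e => (P.second.fibre x hx y hy).2 e) hG' hG'E
    (u := f) (q := f') hf hf' (by
      rw [hG'plane, hG'0, ← hfL, div_self (by positivity : (2 : ℝ) * π ≠ 0)]
      exact congrArg L (PiLp.ext fun k => by fin_cases k <;> simp [pt]))
    (by
      rw [hG'plane, hG'0, ← hf'L]
      exact congrArg L (PiLp.ext fun k => by fin_cases k <;> simp [pt]))
  exact ⟨f, hf, f', hf', a, ha, b, hb, a', ha', b', hb', hne, hff, hfa, hfb, hfa', hfb',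
    Or.inl hrel, Or.inl hrel'⟩

end

end Vale.Agent.P255.Loops
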