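import Vale.Agent.P255.Loops.Deck
import Vale.Agent.P255.Atlas.Space

/-!
# The commutator relation of one block

Polar coordinates between the hole and the boundary of the period square lift to three-space.
-/

open scoped Real Topology
open Set Filter
open scoped commutatorElement

namespace Vale.Agent.P255.Loops

open Vale.Agent.P255.Atlas

noncomputable section

/-- The norm whose balls are squares, on the unit circle. -/
def sqNorm (a : ℝ) : ℝ := max |Real.cos a| |Real.sin a|

theorem sqNorm_pos (a : ℝ) : 0 < sqNorm a := by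
  by_contra h
  have h := not_lt.1 h
  have hc : Real.cos a = 0 := abs_eq_zero.1 (le_antisymm
    ((le_max_left _ _).trans h) (abs_nonneg _))
  have hs : Real.sin a = 0 := abs_eq_zero.1 (le_antisymm
    ((le_max_right _ _).trans h) (abs_nonneg _))
  have := Real.sin_sq_add_cos_sq a
  rw [hc, hs] at this
  norm_num at this

theorem sqNorm_le_one (a : ℝ) : sqNorm a ≤ 1 :=
  max_le (Real.abs_cos_le_one a) (Real.abs_sin_le_one a)

theorem continuous_sqNorm : Continuous sqNorm :=
  Real.continuous_cos.abs.max Real.continuous_sin.abs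

/-- The clamp onto `[0, 1]`. -/
def clamp (s : ℝ) : ℝ := max 0 (min 1 s)

theorem clamp_mem (s : ℝ) : 0 ≤ clamp s ∧ clamp s ≤ 1 :=
  ⟨le_max_left _ _, max_le zero_le_one (min_le_left _ _)⟩

/-- The radius of the interpolation between the circle and the square. -/
def rad (r s a : ℝ) : ℝ := (1 - clamp s) * r + clamp s * (5 / sqNorm a)

/-- The region between the circle of radius `r` and the square, times the line. -/
def square (r : ℝ) (w : E3) : E3 := cyl (rad r (w 0) (w 1)) (w 1) (w 2)

theorem continuous_square (r : ℝ) : Continuous (square r) := by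
  have hc : Continuous fun w : E3 => clamp (w 0) :=
    continuous_const.max (continuous_const.min (by fun_prop))
  have hn : Continuous fun w : E3 => 5 / sqNorm (w 1) :=
    continuous_const.div (continuous_sqNorm.comp (by fun_prop)) fun w => (sqNorm_pos _).ne'
  have hr : Continuous fun w : E3 => rad r (w 0) (w 1) :=
    ((continuous_const.sub hc).mul continuous_const).add (hc.mul hn)
  have h : square r = fun w : E3 =>
      (rad r (w 0) (w 1) * Real.cos (w 1)) • pt 1 0 0 +
        (rad r (w 0) (w 1) * Real.sin (w 1)) • pt 0 1 0 + w 2 • pt 0 0 1 :=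
    funext fun w => pt_eq_sum _ _ _
  rw [h]
  fun_prop

theorem square_mem {R r : ℝ} (h0 : 0 < R) (hR : R < 2) (h1 : R < r) (h2 : r ≤ 5) (w : E3) :
    square r w ∈ block R := by
  obtain ⟨c0, c1⟩ := clamp_mem (w 0)
  have hn := sqNorm_pos (w 1)
  have h5 : 5 ≤ 5 / sqNorm (w 1) := by
    rw [le_div_iff₀ hn]; nlinarith [sqNorm_le_one (w 1)]
  have hr : R < rad r (w 0) (w 1) := by
    rcases eq_or_lt_of_le c0 with h | h
    · simp only [rad, ← h]; linarith
    · simp only [rad]
      nlinarith [mul_le_mul_of_nonneg_left h5 c0, mul_le_mul_of_nonneg_left h1.le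
        (sub_nonneg.2 c1)]
  have hb : ∀ t, |t| ≤ sqNorm (w 1) → |rad r (w 0) (w 1) * t| ≤ 5 := fun t ht => by
    rw [abs_mul, abs_of_pos (h0.trans hr)]
    refine (mul_le_mul_of_nonneg_left ht (h0.trans hr).le).trans ?_
    simp only [rad, add_mul, mul_assoc, div_mul_cancel₀ _ hn.ne']
    nlinarith [mul_le_mul_of_nonneg_left (show r * sqNorm (w 1) ≤ 5 by
      nlinarith [sqNorm_le_one (w 1), h0, h1]) (sub_nonneg.2 c1)]
  refine mem_block_of h0.le hR ?_ ?_ ?_
  · exact hb _ (le_max_left _ _)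
  · exact hb _ (le_max_right _ _)
  · simp only [square, cyl, pt_zero, pt_one]
    have he : (rad r (w 0) (w 1) * Real.cos (w 1)) ^ 2 + (rad r (w 0) (w 1) * Real.sin (w 1)) ^ 2 =
        rad r (w 0) (w 1) ^ 2 := by
      linear_combination rad r (w 0) (w 1) ^ 2 * Real.sin_sq_add_cos_sq (w 1)
    rw [he]
    exact pow_lt_pow_left₀ hr h0.le two_ne_zero

theorem square_circle (r a z : ℝ) : square r (pt 0 a z) = cyl r a z := by
  simp [square, rad, clamp, pt]

theorem square_side (r a z : ℝ) : square r (pt 1 a z) = cyl (5 / sqNorm a) a z := by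
  simp [square, rad, clamp, pt]

theorem square_period (r : ℝ) (w : E3) : square r (w + pt 0 (2 * π) 0) = square r w := by
  simp [square, rad, sqNorm, cyl, pt]

theorem square_shift {p : ℝ} (r : ℝ) (w : E3) :
    BlockEq p (square r w) (square r (w + pt 0 0 p)) :=
  ⟨⟨0, by simp [square, cyl, pt]⟩, ⟨0, by simp [square, cyl, pt]⟩, ⟨1, by simp [square, cyl, pt]⟩⟩

theorem sqNorm_eq_cos {a : ℝ} (h : |a| ≤ π / 4) : sqNorm a = Real.cos a := by
  obtain ⟨h1, h2⟩ := abs_le.1 h
  have hp := Real.pi_pos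
  have hc : 0 ≤ Real.cos a := Real.cos_nonneg_of_mem_Icc ⟨by linarith, by linarith⟩
  rw [sqNorm, abs_of_nonneg hc, max_eq_left]
  have hab : |a| ≤ π / 2 - a := abs_le.2 ⟨by linarith, by linarith⟩
  have hab' : |a| ≤ π / 2 + a := abs_le.2 ⟨by linarith, by linarith⟩
  have hs1 : Real.sin a ≤ Real.cos a := by
    rw [← Real.cos_pi_div_two_sub a, ← Real.cos_abs a]
    exact Real.cos_le_cos_of_nonneg_of_le_pi (abs_nonneg a) (by linarith) hab
  have hs2 : -Real.sin a ≤ Real.cos a := by
    rw [← Real.sin_neg, ← Real.cos_pi_div_two_sub, ← Real.cos_abs a, sub_neg_eq_add]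
    exact Real.cos_le_cos_of_nonneg_of_le_pi (abs_nonneg a) (by linarith) hab'
  exact abs_le.2 ⟨by linarith, hs1⟩

theorem cos_pos_of_le {a : ℝ} (h : |a| ≤ π / 4) : 0 < Real.cos a := by
  rw [← sqNorm_eq_cos h]; exact sqNorm_pos a

theorem side_right {p : ℝ} {a z : ℝ} (h : |a| ≤ π / 4) :
    BlockEq p (cyl (5 / sqNorm (π - a)) (π - a) z) (cyl (5 / sqNorm a) a z) := by
  have hn : sqNorm (π - a) = sqNorm a := by simp [sqNorm]
  have hc := (cos_pos_of_le h).ne'
  rw [hn, sqNorm_eq_cos h]
  refine ⟨⟨1, ?_⟩, ⟨0, ?_⟩, ⟨0, ?_⟩⟩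
  · simp only [cyl, pt_zero, Real.cos_pi_sub]
    push_cast
    field_simp
    ring
  · simp [cyl, pt]
  · simp [cyl, pt]

theorem side_top {p : ℝ} {a z : ℝ} (h : |a - π / 2| ≤ π / 4) :
    BlockEq p (cyl (5 / sqNorm (2 * π - a)) (2 * π - a) z) (cyl (5 / sqNorm a) a z) := by
  have hn : sqNorm (2 * π - a) = sqNorm a := by simp [sqNorm]
  have hn' : sqNorm a = Real.sin a := by
    have := sqNorm_eq_cos h
    rw [sqNorm, Real.cos_sub_pi_div_two, Real.sin_sub_pi_div_two, abs_neg, max_comm] at this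
    exact this
  have hs : Real.sin a ≠ 0 := by rw [← hn']; exact (sqNorm_pos a).ne'
  rw [hn, hn']
  refine ⟨⟨0, ?_⟩, ⟨1, ?_⟩, ⟨0, ?_⟩⟩
  · simp [cyl, pt]
  · simp only [cyl, pt_one, Real.sin_two_pi_sub]
    push_cast
    field_simp
    ring
  · simp [cyl, pt]

variable {M : Type} [TopologicalSpace M] {E : E3 → M} (hE : IsCoveringMap E)
  {V : E3 → M} {R r p : ℝ}

/-- The clamp of an angle onto `[c - π/4, c + π/4]`. -/
def clampAt (c a : ℝ) : ℝ := max (c - π / 4) (min (c + π / 4) a)

theorem clampAt_mem (c a : ℝ) : |clampAt c a - c| ≤ π / 4 := by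
  have hp := Real.pi_pos
  have h1 : clampAt c a ≤ c + π / 4 := max_le (by linarith) (min_le_left _ _)
  have h2 : c - π / 4 ≤ clampAt c a := le_max_left _ _
  exact abs_le.2 ⟨by linarith, by linarith⟩

include hE

/-- A deck transformation matching two lifted sides of the square. -/
theorem exists_side {G : E3 → E3} (hG : Continuous G) {P : E3 → M}
    (hGE : ∀ w, E (G w) = P w) (c d : ℝ)
    (h : ∀ a z, |a - c| ≤ π / 4 → P (pt 1 (d - a) z) = P (pt 1 a z)) :
    ∃ k ∈ Deck E, ∀ a z, |a - c| ≤ π / 4 → k (G (pt 1 (d - a) z)) = G (pt 1 a z) := by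
  have hp := Real.pi_pos
  obtain ⟨k, hk, hk0⟩ := exists_deck hE (x := G (pt 1 (d - c) 0)) (y := G (pt 1 c 0))
    (by rw [hGE, hGE]; exact h c 0 (by rw [sub_self, abs_zero]; linarith))
  refine ⟨k, hk, fun a z ha => ?_⟩
  have hc : Continuous fun w : E3 => clampAt c (w 1) :=
    continuous_const.max (continuous_const.min (by fun_prop))
  have hx : Continuous fun w : E3 => pt 1 (clampAt c (w 1)) (w 2) := by
    simp only [pt_eq_sum 1 (clampAt c _)]
    fun_prop
  have hy : Continuous fun w : E3 => pt 1 (d - clampAt c (w 1)) (w 2) := by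
    simp only [pt_eq_sum 1 (d - clampAt c _)]
    fun_prop
  have hid : ∀ b, |b - c| ≤ π / 4 → clampAt c b = b := fun b hb => by
    obtain ⟨h1, h2⟩ := abs_le.1 hb
    rw [clampAt, min_eq_right (by linarith), max_eq_right (by linarith)]
  have key := lift_unique hE (hk.1.comp (hG.comp hy)) (hG.comp hx) (fun w => by
    change E (k (G _)) = E (G _)
    rw [hk.2.2, hGE, hGE]
    exact h _ _ (clampAt_mem c _)) (a := pt 0 c 0) (by
      simpa [pt_zero, pt_one, pt_two, hid c (by rw [sub_self, abs_zero]; linarith)] using hk0)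
    (pt 0 a z)
  simpa [pt_zero, pt_one, pt_two, hid a ha] using key

/-- The deck transformation of a period of the lifted map. -/
theorem exists_period {G : E3 → E3} (hG : Continuous G) {P : E3 → M}
    (hGE : ∀ w, E (G w) = P w) (v : E3) (h : ∀ w, P (w + v) = P w) :
    ∃ k ∈ Deck E, ∀ w, G (w + v) = k (G w) := by
  obtain ⟨k, hk, hk0⟩ := exists_deck hE (x := G 0) (y := G (0 + v))
    (by rw [hGE, hGE, h])
  exact ⟨k, hk, fun w => lift_unique hE (hG.comp (continuous_id.add continuous_const))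
    (hk.1.comp hG) (fun w => by
      change E (G (w + v)) = E (k (G w))
      rw [hk.2.2, hGE, hGE, h]) (a := 0) hk0.symm w⟩

/-- The relation of a block: with `G` a lift of the square region, the turn around the hole is a
commutator of deck transformations commuting with the turn of the fibre. -/
theorem block_relation (h0 : 0 < R) (hR : R < 2) (hr : R < r) (hr' : r ≤ 5)
    (hV : ∀ x ∈ block R, ∀ y ∈ block R, BlockEq p x y → V x = V y) {G : E3 → E3}
    (hG : Continuous G) (hGE : ∀ w, E (G w) = V (square r w)) {u q : Equiv.Perm E3}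
    (hu : u ∈ Deck E) (hq : q ∈ Deck E) (hu0 : G (pt 0 (2 * π) 0) = u (G 0))
    (hq0 : G (pt 0 0 p) = q (G 0)) :
    ∃ a ∈ Deck E, ∃ b ∈ Deck E, Commute q a ∧ Commute q b ∧ u = ⁅a, b⁆ := by
  obtain ⟨u', hu', hper⟩ := exists_period hE hG hGE (pt 0 (2 * π) 0)
    (fun w => by rw [square_period])
  obtain ⟨q', hq', hfib⟩ := exists_period hE hG hGE (pt 0 0 p) (fun w =>
    (hV _ (square_mem h0 hR hr hr' w) _ (square_mem h0 hR hr hr' _) (square_shift r w)).symm)
  obtain rfl : u' = u := deck_ext hE hu' hu (x := G 0) (by rw [← hper, zero_add, hu0])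
  obtain rfl : q' = q := deck_ext hE hq' hq (x := G 0) (by rw [← hfib, zero_add, hq0])
  obtain ⟨a, ha, hA⟩ := exists_side hE hG hGE 0 π fun t z ht => hV _ (square_mem h0 hR hr hr' _) _
    (square_mem h0 hR hr hr' _) (by
      rw [square_side, square_side]; exact side_right (by simpa using ht))
  obtain ⟨b, hb, hB⟩ := exists_side hE hG hGE (π / 2) (2 * π) fun t z ht =>
    hV _ (square_mem h0 hR hr hr' _) _ (square_mem h0 hR hr hr' _) (by
      rw [square_side, square_side]; exact side_top ht)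
  have hp := Real.pi_pos
  have hA3 : ∀ z, a (G (pt 1 (5 * π / 4) z)) = G (pt 1 (-π / 4) z) := fun z => by
    have := hA (-π / 4) z (by rw [sub_zero, abs_of_neg (by linarith)]; linarith)
    rwa [show π - -π / 4 = 5 * π / 4 by ring] at this
  have hA2 : a (G (pt 1 (3 * π / 4) 0)) = G (pt 1 (π / 4) 0) := by
    have := hA (π / 4) 0 (by rw [sub_zero, abs_of_pos (by linarith)])
    rwa [show π - π / 4 = 3 * π / 4 by ring] at this
  have hB4 : ∀ z, b (G (pt 1 (7 * π / 4) z)) = G (pt 1 (π / 4) z) := fun z => by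
    have := hB (π / 4) z (by rw [abs_of_neg (by linarith)]; linarith)
    rwa [show 2 * π - π / 4 = 7 * π / 4 by ring] at this
  have hB3 : b (G (pt 1 (5 * π / 4) 0)) = G (pt 1 (3 * π / 4) 0) := by
    have := hB (3 * π / 4) 0 (by rw [abs_of_pos (by linarith)]; linarith)
    rwa [show 2 * π - 3 * π / 4 = 5 * π / 4 by ring] at this
  have hshift : ∀ t z, G (pt 1 t (z + p)) = q' (G (pt 1 t z)) := fun t z => by
    rw [← hfib, show pt 1 t z + pt 0 0 p = pt 1 t (z + p) from
      PiLp.ext fun k => by fin_cases k <;> simp [pt]]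
  have hturn : ∀ z, G (pt 1 (7 * π / 4) z) = u' (G (pt 1 (-π / 4) z)) := fun z => by
    rw [← hper, show pt 1 (-π / 4) z + pt 0 (2 * π) 0 = pt 1 (7 * π / 4) z from
      PiLp.ext fun k => by fin_cases k <;> simp [pt]; ring]
  have hqa : Commute q' a := by
    refine deck_ext hE (mul_mem hq' ha) (mul_mem ha hq') (x := G (pt 1 (5 * π / 4) 0)) ?_
    simp only [Equiv.Perm.mul_apply]
    rw [hA3, ← hshift, ← hshift, hA3]
  have hqb : Commute q' b := by
    refine deck_ext hE (mul_mem hq' hb) (mul_mem hb hq') (x := G (pt 1 (7 * π / 4) 0)) ?_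
    simp only [Equiv.Perm.mul_apply]
    rw [hB4, ← hshift, ← hshift, hB4]
  have hrel : b * u' = a * b * a⁻¹ := by
    refine deck_ext hE (mul_mem hb hu') (mul_mem (mul_mem ha hb) (inv_mem ha))
      (x := G (pt 1 (-π / 4) 0)) ?_
    simp only [Equiv.Perm.mul_apply, ← hturn, hB4, ← hA2, ← hB3]
    rw [← hA3, Equiv.Perm.coe_inv, Equiv.symm_apply_apply]
  refine ⟨b⁻¹, inv_mem hb, a, ha, hqb.inv_right, hqa, ?_⟩
  rw [commutatorElement_def, inv_inv, mul_assoc b⁻¹, mul_assoc b⁻¹, ← hrel, inv_mul_cancel_left]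

end

end Vale.Agent.P255.Loops
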