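import Vale.Agent.P255.Defs

/-!
# Deck transformations of a covering of three-space
-/

open scoped Manifold ContDiff Topology
open Set Filter

namespace Vale.Agent.P255.Loops

noncomputable section

variable {M : Type} [TopologicalSpace M]

/-- The deck transformations of a map. -/
def Deck (E : E3 → M) : Subgroup (Equiv.Perm E3) where
  carrier := {φ | Continuous φ ∧ Continuous φ.symm ∧ ∀ x, E (φ x) = E x}
  one_mem' := ⟨continuous_id, continuous_id, fun _ => rfl⟩
  mul_mem' := fun {a b} ha hb => ⟨ha.1.comp hb.1, hb.2.1.comp ha.2.1, fun x =>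
    (ha.2.2 (b x)).trans (hb.2.2 x)⟩
  inv_mem' := fun {a} ha => ⟨ha.2.1, ha.1, fun x => by
    have h := ha.2.2 (a.symm x)
    rw [a.apply_symm_apply] at h
    exact h.symm⟩

variable {E : E3 → M}

theorem mem_deck {φ : Equiv.Perm E3} :
    φ ∈ Deck E ↔ Continuous φ ∧ Continuous φ.symm ∧ ∀ x, E (φ x) = E x := Iff.rfl

variable (hE : IsCoveringMap E)
include hE

/-- Maps of three-space lift, with a prescribed value at one point. -/
theorem exists_lift {F : E3 → M} (hF : Continuous F) {a x : E3} (h : E x = F a) :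
    ∃ G : E3 → E3, Continuous G ∧ G a = x ∧ ∀ z, E (G z) = F z := by
  obtain ⟨G, ⟨h1, h2⟩, -⟩ := hE.existsUnique_continuousMap_lifts ⟨F, hF⟩ a x h
  exact ⟨G, G.continuous, h1, fun z => congr_fun h2 z⟩

/-- Lifts on a connected space which agree at one point are equal. -/
theorem lift_unique {A : Type} [TopologicalSpace A] [PreconnectedSpace A] {G G' : A → E3}
    (hG : Continuous G) (hG' : Continuous G') (h : ∀ z, E (G z) = E (G' z)) {a : A}
    (ha : G a = G' a) (z : A) : G z = G' z :=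
  congr_fun (hE.eq_of_comp_eq hG hG' (funext h) a ha) z

theorem deck_ext {g g' : Equiv.Perm E3} (hg : g ∈ Deck E) (hg' : g' ∈ Deck E) {x : E3}
    (h : g x = g' x) : g = g' :=
  Equiv.ext (lift_unique hE hg.1 hg'.1 (fun z => (hg.2.2 z).trans (hg'.2.2 z).symm) h)

theorem deck_eq_one {g : Equiv.Perm E3} (hg : g ∈ Deck E) {x : E3} (h : g x = x) : g = 1 :=
  deck_ext hE hg (Subgroup.one_mem _) h

/-- The deck transformations act transitively on each fibre. -/
theorem exists_deck {x y : E3} (h : E x = E y) : ∃ g ∈ Deck E, g x = y := by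
  obtain ⟨φ, hφ, hφx, hφE⟩ := exists_lift hE hE.continuous h.symm
  obtain ⟨ψ, hψ, hψy, hψE⟩ := exists_lift hE hE.continuous h
  have h1 : ∀ z, ψ (φ z) = z := lift_unique hE (hψ.comp hφ) continuous_id
    (fun z => (hψE (φ z)).trans (hφE z)) (a := x) (by simp [hφx, hψy])
  have h2 : ∀ z, φ (ψ z) = z := lift_unique hE (hφ.comp hψ) continuous_id
    (fun z => (hφE (ψ z)).trans (hψE z)) (a := y) (by simp [hψy, hφx])
  exact ⟨⟨φ, ψ, h1, h2⟩, ⟨hφ, hψ, hφE⟩, hφx⟩

/-- Each point has a neighbourhood left by every nontrivial deck transformation. -/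
theorem exists_free_nhd (y : E3) : ∃ U ∈ 𝓝 y, ∀ g ∈ Deck E, g ≠ 1 → g y ∉ U := by
  obtain ⟨U, hU, hyU, hinj⟩ := hE.isLocalHomeomorph.isLocallyInjective y
  exact ⟨U, hU.mem_nhds hyU, fun g hg hg1 hgy =>
    hg1 (deck_eq_one hE hg (hinj hgy hyU (hg.2.2 y)))⟩

/-- A compact set meeting every orbit, for a compact base. -/
theorem exists_compact_reps [CompactSpace M] (hs : Function.Surjective E) :
    ∃ K : Set E3, IsCompact K ∧ ∀ y, ∃ g ∈ Deck E, ∃ k ∈ K, g k = y := by
  choose s hs using hs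
  have hcov : (univ : Set M) ⊆ ⋃ q, E '' Metric.ball (s q) 1 := fun q _ =>
    mem_iUnion.2 ⟨q, s q, Metric.mem_ball_self one_pos, hs q⟩
  obtain ⟨t, ht⟩ := isCompact_univ.elim_finite_subcover _
    (fun q => hE.isLocalHomeomorph.isOpenMap _ Metric.isOpen_ball) hcov
  refine ⟨⋃ q ∈ t, Metric.closedBall (s q) 1,
    t.finite_toSet.isCompact_biUnion fun q _ => isCompact_closedBall _ _, fun y => ?_⟩
  obtain ⟨q, hq, k, hk, hky⟩ := mem_iUnion₂.1 (ht (mem_univ (E y)))
  obtain ⟨g, hg, hgk⟩ := exists_deck hE hky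
  exact ⟨g, hg, k, mem_iUnion₂.2 ⟨q, hq, Metric.ball_subset_closedBall hk⟩, hgk⟩

omit hE

variable [ChartedSpace E3 M] [IsManifold (𝓡 3) ∞ M]

/-- Deck transformations of a smooth local diffeomorphism are smooth. -/
theorem contDiff_deck (hsm : ContMDiff (𝓡 3) (𝓡 3) ∞ E)
    (hbij : ∀ x, Function.Bijective (mfderiv (𝓡 3) (𝓡 3) E x))
    {g : Equiv.Perm E3} (hg : g ∈ Deck E) : ContDiff ℝ ∞ g := by
  refine contDiff_iff_contDiffAt.2 fun x => ?_
  set c := extChartAt (𝓡 3) (E (g x)) with hc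
  have hsrc : c.source ∈ 𝓝 (E (g x)) := extChartAt_source_mem_nhds _
  have hC : ∀ z : E3, E z ∈ c.source → ContDiffAt ℝ ∞ (fun z => c (E z)) z := fun z hz => by
    have h1 : ContMDiffAt (𝓡 3) 𝓘(ℝ, E3) ∞ c (E z) :=
      contMDiffAt_extChartAt' (by rwa [hc, extChartAt_source] at hz)
    exact contMDiffAt_iff_contDiffAt.1 (h1.comp z hsm.contMDiffAt)
  have hgx : E (g x) ∈ c.source := mem_extChartAt_source _
  have he := hC (g x) hgx
  have hd := (he.differentiableAt (by simp)).hasFDerivAt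
  have hder : mfderiv (𝓡 3) 𝓘(ℝ, E3) (fun z => c (E z)) (g x) =
      (mfderiv (𝓡 3) 𝓘(ℝ, E3) c (E (g x))).comp (mfderiv (𝓡 3) (𝓡 3) E (g x)) :=
    mfderiv_comp (g x)
      ((contMDiffAt_extChartAt (n := ∞)).mdifferentiableAt (by simp))
      (hsm.contMDiffAt.mdifferentiableAt (by simp))
  have hinjd : Function.Injective (fderiv ℝ (fun z => c (E z)) (g x)) := by
    rw [← mfderiv_eq_fderiv, hder]
    exact (isInvertible_mfderiv_extChartAt hgx).bijective.1.comp (hbij _).1
  let e : E3 ≃L[ℝ] E3 := (LinearEquiv.ofInjectiveEndo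
    (fderiv ℝ (fun z => c (E z)) (g x)).toLinearMap hinjd).toContinuousLinearEquiv
  have heq : (e : E3 →L[ℝ] E3) = fderiv ℝ (fun z => c (E z)) (g x) :=
    ContinuousLinearMap.ext fun u => rfl
  have he' : HasFDerivAt (fun z => c (E z)) (e : E3 →L[ℝ] E3) (g x) := heq ▸ hd
  have hn : (∞ : WithTop ℕ∞) ≠ 0 := by simp
  have hs := he.hasStrictFDerivAt' he' hn
  have hσ := he.to_localInverse he' hn
  have hEx : E (g x) = E x := hg.2.2 x
  have hleft : ∀ᶠ z in 𝓝 x, g z = he.localInverse he' hn (c (E z)) := by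
    filter_upwards [hg.1.continuousAt.eventually hs.eventually_left_inverse] with z hz
    refine hz.symm.trans ?_
    exact congrArg (fun q => he.localInverse he' hn (c q)) (hg.2.2 z)
  refine ContDiffAt.congr_of_eventuallyEq ?_ hleft
  have hcx := hC x (hEx ▸ hgx)
  have hσ' : ContDiffAt ℝ ∞ (he.localInverse he' hn) (c (E x)) :=
    (congrArg c hEx) ▸ hσ
  exact hσ'.comp x hcx

/-- Deck transformations preserve every pulled back form. -/
theorem deck_preserves {F : Type*} (hsm : ContMDiff (𝓡 3) (𝓡 3) ∞ E)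
    (hbij : ∀ x, Function.Bijective (mfderiv (𝓡 3) (𝓡 3) E x))
    {g : Equiv.Perm E3} (hg : g ∈ Deck E) (B : M → E3 → E3 → F) (x u v : E3) :
    B (E (g x)) (mfderiv (𝓡 3) (𝓡 3) E (g x) (fderiv ℝ g x u))
        (mfderiv (𝓡 3) (𝓡 3) E (g x) (fderiv ℝ g x v)) =
      B (E x) (mfderiv (𝓡 3) (𝓡 3) E x u) (mfderiv (𝓡 3) (𝓡 3) E x v) := by
  have hd : MDifferentiableAt (𝓡 3) (𝓡 3) g x :=
    ((contDiff_deck hsm hbij hg).differentiable (by simp) x).mdifferentiableAt
  have hEd : MDifferentiableAt (𝓡 3) (𝓡 3) E (g x) :=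
    hsm.contMDiffAt.mdifferentiableAt (by simp)
  have h := mfderiv_comp x hEd hd
  rw [show E ∘ g = E from funext hg.2.2, mfderiv_eq_fderiv] at h
  rw [h, hg.2.2 x]
  rfl

end

end Vale.Agent.P255.Loops
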